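import Vale.Agent.P065.Defs

/-!
Dey's convex chains of k-edges and a bound on the k-edges leaving a given class of points.
-/

namespace Vale.Agent.P065

open Finset Relation

/-- Slope of the segment `u v`. -/
noncomputable def sl (u v : ℝ × ℝ) : ℝ := (v.2 - u.2) / (v.1 - u.1)

/-- Intercept of the line of slope `s` through `p`. -/
def ht (s : ℝ) (p : ℝ × ℝ) : ℝ := p.2 - s * p.1

/-- The k-edges, directed left to right, with exactly `c` points above. -/
noncomputable def edges (P : Finset (ℝ × ℝ)) (c : ℕ) : Finset ((ℝ × ℝ) × (ℝ × ℝ)) :=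
  (P ×ˢ P).filter fun e => e.1.1 < e.2.1 ∧ (P.filter fun p => 0 < side e.1 e.2 p).card = c

/-- Count just below slope `t`: above, or tied and to the right. -/
noncomputable def Tm (P : Finset (ℝ × ℝ)) (u : ℝ × ℝ) (t : ℝ) : Finset (ℝ × ℝ) :=
  P.filter fun p => ht t u < ht t p ∨ (ht t p = ht t u ∧ u.1 < p.1)

/-- Count just above slope `s`: above, or tied and to the left. -/
noncomputable def Tp (P : Finset (ℝ × ℝ)) (u : ℝ × ℝ) (s : ℝ) : Finset (ℝ × ℝ) :=
  P.filter fun p => ht s u < ht s p ∨ (ht s p = ht s u ∧ p.1 < u.1)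

lemma sl_symm (u v : ℝ × ℝ) : sl u v = sl v u := by
  unfold sl; rw [← neg_sub u.2 v.2, ← neg_sub u.1 v.1, neg_div_neg_eq]

lemma ht_sub (u v : ℝ × ℝ) (h : u.1 ≠ v.1) (s : ℝ) :
    ht s v - ht s u = (sl u v - s) * (v.1 - u.1) := by
  have : v.1 - u.1 ≠ 0 := sub_ne_zero.2 (Ne.symm h)
  unfold ht sl; field_simp; ring

lemma side_eq (u v p : ℝ × ℝ) (h : u.1 ≠ v.1) :
    side u v p = (v.1 - u.1) * (ht (sl u v) p - ht (sl u v) u) := by
  have : v.1 - u.1 ≠ 0 := sub_ne_zero.2 (Ne.symm h)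
  unfold side ht sl; field_simp; ring

lemma mono_no_left (P : Finset (ℝ × ℝ)) (hx : Set.InjOn Prod.fst (P : Set (ℝ × ℝ))) {u : ℝ × ℝ}
    (hu : u ∈ P) {s t : ℝ} (hst : s < t)
    (hno : ∀ z ∈ P, z.1 < u.1 → ¬(s < sl z u ∧ sl z u < t)) :
    Tm P u t ⊆ Tp P u s := by
  intro p hp
  obtain ⟨hpP, hp⟩ := Finset.mem_filter.1 hp
  refine Finset.mem_filter.2 ⟨hpP, ?_⟩
  rcases lt_trichotomy u.1 p.1 with h | h | h
  · left
    have e1 := ht_sub u p h.ne t
    have e2 := ht_sub u p h.ne s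
    have : 0 ≤ ht t p - ht t u := by rcases hp with h' | ⟨h', -⟩ <;> linarith
    have hd : 0 < p.1 - u.1 := by linarith
    nlinarith [mul_pos (sub_pos.2 hst) hd]
  · obtain rfl : u = p := hx hu hpP h
    rcases hp with h' | ⟨-, h'⟩ <;> exact absurd h' (lt_irrefl _)
  · rcases hp with hp | ⟨-, h'⟩
    · have e1 := ht_sub p u h.ne t
      have e2 := ht_sub p u h.ne s
      have hd : 0 < u.1 - p.1 := by linarith
      have h1 : sl p u < t := by
        by_contra hcon
        nlinarith [mul_nonneg (sub_nonneg.2 (not_lt.1 hcon)) hd.le]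
      have h2 : sl p u ≤ s := le_of_not_gt fun h3 => hno p hpP h ⟨h3, h1⟩
      rcases h2.lt_or_eq with h3 | h3
      · left; nlinarith [mul_pos (sub_pos.2 h3) hd]
      · right; refine ⟨?_, h⟩; rw [h3] at e2; linarith [e2, zero_mul (u.1 - p.1), sub_self s]
    · exact absurd h (not_lt.2 h'.le)

variable {P : Finset (ℝ × ℝ)}

lemma tie (hx : Set.InjOn Prod.fst (P : Set (ℝ × ℝ))) (h3 : NoThree P) {u v p : ℝ × ℝ}
    (hu : u ∈ P) (hv : v ∈ P) (hp : p ∈ P) (huv : u ≠ v)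
    (h : ht (sl u v) p = ht (sl u v) u) : p = u ∨ p = v := by
  by_contra hcon
  obtain ⟨hpu, hpv⟩ := not_or.1 hcon
  refine h3 u hu v hv p hp huv (Ne.symm hpu) (Ne.symm hpv) ?_
  rw [side_eq u v p fun he => huv (hx hu hv he), h, sub_self, mul_zero]

lemma above_eq {u v : ℝ × ℝ} (h : u.1 < v.1) :
    (P.filter fun p => 0 < side u v p) = P.filter fun p => ht (sl u v) u < ht (sl u v) p := by
  refine Finset.filter_congr fun p _ => ?_
  rw [side_eq u v p h.ne]
  constructor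
  · intro hh
    by_contra hcon
    nlinarith [mul_nonneg (sub_nonneg.2 h.le) (sub_nonneg.2 (not_lt.1 hcon))]
  · exact fun hh => mul_pos (sub_pos.2 h) (sub_pos.2 hh)

lemma right_counts (hx : Set.InjOn Prod.fst (P : Set (ℝ × ℝ))) (h3 : NoThree P) {u v : ℝ × ℝ}
    (hu : u ∈ P) (hv : v ∈ P) (h : u.1 < v.1) :
    (Tp P u (sl u v)).card = (P.filter fun p => 0 < side u v p).card ∧
      (Tm P u (sl u v)).card = (P.filter fun p => 0 < side u v p).card + 1 := by
  have huv : u ≠ v := fun he => h.ne (congrArg Prod.fst he)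
  have hv0 : ht (sl u v) v = ht (sl u v) u := by
    have := ht_sub u v h.ne (sl u v); rw [sub_self, zero_mul] at this; linarith
  rw [above_eq h]
  constructor
  · congr 1
    refine Finset.filter_congr fun p hp => or_iff_left ?_
    rintro ⟨he, hlt⟩
    rcases tie hx h3 hu hv hp huv he with rfl | rfl
    · exact lt_irrefl _ hlt
    · exact lt_asymm h hlt
  · rw [← Finset.card_insert_of_notMem (s := P.filter fun p => ht (sl u v) u < ht (sl u v) p)
      (a := v) (by simp [hv0])]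
    congr 1
    ext p
    simp only [Tm, Finset.mem_filter, Finset.mem_insert]
    constructor
    · rintro ⟨hp, hlt | ⟨he, hlt⟩⟩
      · exact .inr ⟨hp, hlt⟩
      · rcases tie hx h3 hu hv hp huv he with rfl | rfl
        · exact absurd hlt (lt_irrefl _)
        · exact .inl rfl
    · rintro (rfl | ⟨hp, hlt⟩)
      · exact ⟨hv, .inr ⟨hv0, h⟩⟩
      · exact ⟨hp, .inl hlt⟩

lemma left_counts (hx : Set.InjOn Prod.fst (P : Set (ℝ × ℝ))) (h3 : NoThree P) {z u : ℝ × ℝ}
    (hz : z ∈ P) (hu : u ∈ P) (h : z.1 < u.1) :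
    (Tm P u (sl z u)).card = (P.filter fun p => 0 < side z u p).card ∧
      (Tp P u (sl z u)).card = (P.filter fun p => 0 < side z u p).card + 1 := by
  have hzu : z ≠ u := fun he => h.ne (congrArg Prod.fst he)
  have hu0 : ht (sl z u) u = ht (sl z u) z := by
    have := ht_sub z u h.ne (sl z u); rw [sub_self, zero_mul] at this; linarith
  rw [above_eq h]
  constructor
  · congr 1
    refine Finset.filter_congr fun p hp => ?_
    rw [← hu0]
    refine or_iff_left ?_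
    rintro ⟨he, hlt⟩
    rcases tie hx h3 hz hu hp hzu (he.trans hu0) with rfl | rfl
    · exact lt_asymm h hlt
    · exact lt_irrefl _ hlt
  · rw [← Finset.card_insert_of_notMem (s := P.filter fun p => ht (sl z u) z < ht (sl z u) p)
      (a := z) (by simp)]
    congr 1
    ext p
    simp only [Tp, Finset.mem_filter, Finset.mem_insert, hu0]
    constructor
    · rintro ⟨hp, hlt | ⟨he, hlt⟩⟩
      · exact .inr ⟨hp, hlt⟩
      · rcases tie hx h3 hz hu hp hzu he with rfl | rfl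
        · exact .inl rfl
        · exact absurd hlt (lt_irrefl _)
    · rintro (rfl | ⟨hp, hlt⟩)
      · exact ⟨hz, .inr ⟨rfl, h⟩⟩
      · exact ⟨hp, .inl hlt⟩

lemma mem_edges {c : ℕ} {e : (ℝ × ℝ) × (ℝ × ℝ)} :
    e ∈ edges P c ↔ e.1 ∈ P ∧ e.2 ∈ P ∧ e.1.1 < e.2.1 ∧
      (P.filter fun p => 0 < side e.1 e.2 p).card = c := by
  simp only [edges, Finset.mem_filter, Finset.mem_product, and_assoc]

/-- Between two right edges at `u` there is a left edge. -/
lemma between (hx : Set.InjOn Prod.fst (P : Set (ℝ × ℝ))) (h3 : NoThree P) {c : ℕ}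
    {u a b : ℝ × ℝ} (ha : (u, a) ∈ edges P c) (hb : (u, b) ∈ edges P c)
    (hab : sl u a < sl u b) :
    ∃ z, (z, u) ∈ edges P c ∧ sl u a < sl z u ∧ sl z u < sl u b := by
  obtain ⟨hu, haP, hla, hca⟩ := mem_edges.1 ha
  obtain ⟨-, hbP, hlb, hcb⟩ := mem_edges.1 hb
  have A := (right_counts hx h3 hu haP hla).1
  have B := (right_counts hx h3 hu hbP hlb).2
  dsimp only at *
  rw [hca] at A
  rw [hcb] at B
  set sa := sl u a
  set sb := sl u b
  have last : ∀ t, sa < t → (Tm P u t).card ≤ c ∨ ∃ y ∈ P, y.1 < u.1 ∧ sa < sl y u ∧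
      sl y u < t ∧ (Tm P u t).card ≤ (Tp P u (sl y u)).card := by
    intro t ht'
    rcases (P.filter fun y => y.1 < u.1 ∧ sa < sl y u ∧ sl y u < t).eq_empty_or_nonempty with
      h | h
    · left
      rw [Finset.filter_eq_empty_iff] at h
      exact (Finset.card_le_card (mono_no_left P hx hu ht' fun z hz hl hc =>
        h hz ⟨hl, hc.1, hc.2⟩)).trans A.le
    · right
      obtain ⟨y, hy, hmax⟩ := Finset.exists_max_image _ (fun y => sl y u) h
      obtain ⟨hyP, hy1, hy2, hy3⟩ := Finset.mem_filter.1 hy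
      refine ⟨y, hyP, hy1, hy2, hy3, Finset.card_le_card (mono_no_left P hx hu hy3 ?_)⟩
      intro z hz hl hc
      exact not_lt.2 (hmax z (Finset.mem_filter.2 ⟨hz, hl, hy2.trans hc.1, hc.2⟩)) hc.1
  let W := P.filter fun z => z.1 < u.1 ∧ sa < sl z u ∧ sl z u < sb ∧
    c + 1 ≤ (Tp P u (sl z u)).card
  have hW : W.Nonempty := by
    rcases last sb hab with h | ⟨y, hy, h1, h2, h3', h4⟩
    · omega
    · exact ⟨y, Finset.mem_filter.2 ⟨hy, h1, h2, h3', by omega⟩⟩
  obtain ⟨z, hz, hmin⟩ := Finset.exists_min_image W (fun z => sl z u) hW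
  obtain ⟨hzP, hzl, hza, hzb, hzc⟩ := Finset.mem_filter.1 hz
  obtain ⟨C1, C2⟩ := left_counts hx h3 hzP hu hzl
  refine ⟨z, mem_edges.2 ⟨hzP, hu, hzl, ?_⟩, hza, hzb⟩
  simp only
  rcases last _ hza with h | ⟨y, hy, h1, h2, h3', h4⟩
  · omega
  · by_contra hcon
    have : y ∈ W := Finset.mem_filter.2 ⟨hy, h1, h2, h3'.trans hzb, by omega⟩
    exact not_lt.2 (hmin y this) h3'

/-- `e` follows `f` in the convex chain. -/
def Nxt (P : Finset (ℝ × ℝ)) (c : ℕ) (f e : (ℝ × ℝ) × (ℝ × ℝ)) : Prop :=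
  f ∈ edges P c ∧ e ∈ edges P c ∧ f.2 = e.1 ∧ sl f.1 f.2 < sl e.1 e.2 ∧
    ∀ g ∈ edges P c, g.2 = e.1 → sl g.1 g.2 < sl e.1 e.2 → sl g.1 g.2 ≤ sl f.1 f.2

lemma same_right (hx : Set.InjOn Prod.fst (P : Set (ℝ × ℝ))) (h3 : NoThree P) {c : ℕ}
    {e f : (ℝ × ℝ) × (ℝ × ℝ)} (he : e ∈ edges P c) (hf : f ∈ edges P c) (h1 : e.1 = f.1)
    (hs : sl e.1 e.2 = sl f.1 f.2) : e = f := by
  obtain ⟨e1, e2, el, -⟩ := mem_edges.1 he
  obtain ⟨f1, f2, fl, -⟩ := mem_edges.1 hf
  refine Prod.ext h1 ?_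
  have h : ht (sl e.1 e.2) f.2 = ht (sl e.1 e.2) e.1 := by
    have := ht_sub f.1 f.2 fl.ne (sl e.1 e.2)
    rw [← hs, sub_self, zero_mul, ← h1] at this
    linarith
  rcases tie hx h3 e1 e2 f2 (fun h => el.ne (congrArg Prod.fst h)) h with h' | h'
  · exact absurd (congrArg Prod.fst (h'.trans h1)) fl.ne'
  · exact h'.symm

lemma nxt_rightUnique (hx : Set.InjOn Prod.fst (P : Set (ℝ × ℝ))) (h3 : NoThree P) (c : ℕ) :
    Relator.RightUnique (Nxt P c) := by
  have key : ∀ f a b, Nxt P c f a → Nxt P c f b → ¬ sl a.1 a.2 < sl b.1 b.2 := by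
    rintro f a b ⟨-, ha, ha1, hfa, -⟩ ⟨-, hb, hb1, -, hmax⟩ hlt
    have hab : b.1 = a.1 := hb1.symm.trans ha1
    have hb' : (a.1, b.2) ∈ edges P c := by rw [← hab]; exact hb
    rw [hab] at hlt
    obtain ⟨z, hz, h1, h2⟩ := between hx h3 (u := a.1) (a := a.2) (b := b.2) ha hb' hlt
    have := hmax (z, a.1) hz hab.symm (by rw [hab]; exact h2)
    linarith
  intro f a b ha hb
  refine same_right hx h3 ha.2.1 hb.2.1 (ha.2.2.1.symm.trans hb.2.2.1) ?_
  exact le_antisymm (not_lt.1 (key f b a hb ha)) (not_lt.1 (key f a b ha hb))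

lemma exists_root {c : ℕ} : ∀ e ∈ edges P c, ∃ r ∈ edges P c,
    (∀ g ∈ edges P c, g.2 = r.1 → ¬ sl g.1 g.2 < sl r.1 r.2) ∧
      ReflTransGen (Nxt P c) r e := by
  suffices ∀ n, ∀ e ∈ edges P c,
      ((edges P c).filter fun g => sl g.1 g.2 < sl e.1 e.2).card ≤ n →
      ∃ r ∈ edges P c, (∀ g ∈ edges P c, g.2 = r.1 → ¬ sl g.1 g.2 < sl r.1 r.2) ∧
        ReflTransGen (Nxt P c) r e from fun e he => this _ e he le_rfl
  intro n
  induction n with
  | zero =>
    intro e he h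
    rw [Nat.le_zero, Finset.card_eq_zero, Finset.filter_eq_empty_iff] at h
    exact ⟨e, he, fun g hg _ => h hg, .refl⟩
  | succ n ih =>
    intro e he h
    rcases ((edges P c).filter fun g => g.2 = e.1 ∧ sl g.1 g.2 < sl e.1 e.2).eq_empty_or_nonempty
      with h0 | h0
    · rw [Finset.filter_eq_empty_iff] at h0
      exact ⟨e, he, fun g hg h1 h2 => h0 hg ⟨h1, h2⟩, .refl⟩
    · obtain ⟨f, hf, hmax⟩ := Finset.exists_max_image _ (fun g => sl g.1 g.2) h0
      obtain ⟨hfE, hf1, hf2⟩ := Finset.mem_filter.1 hf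
      have hlt : ((edges P c).filter fun g => sl g.1 g.2 < sl f.1 f.2) ⊂
          ((edges P c).filter fun g => sl g.1 g.2 < sl e.1 e.2) := by
        refine Finset.ssubset_iff_of_subset ?_ |>.2
          ⟨f, Finset.mem_filter.2 ⟨hfE, hf2⟩, by simp⟩
        intro g hg
        obtain ⟨hg1, hg2⟩ := Finset.mem_filter.1 hg
        exact Finset.mem_filter.2 ⟨hg1, hg2.trans hf2⟩
      obtain ⟨r, hr, hroot, hanc⟩ := ih f hfE (by have := Finset.card_lt_card hlt; omega)
      exact ⟨r, hr, hroot, hanc.tail ⟨hfE, he, hf1, hf2, fun g hg h1 h2 =>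
        hmax g (Finset.mem_filter.2 ⟨hg, h1, h2⟩)⟩⟩

lemma anc_geom {c : ℕ} {f e : (ℝ × ℝ) × (ℝ × ℝ)} (h : TransGen (Nxt P c) f e) :
    f.1.1 < e.1.1 ∧ sl f.1 f.2 ≤ sl f.1 e.1 ∧ sl f.1 e.1 < sl e.1 e.2 := by
  induction h with
  | single h =>
    obtain ⟨hf, -, he, hlt, -⟩ := h
    rw [← he]
    exact ⟨(mem_edges.1 hf).2.2.1, le_rfl, by rw [he] at hlt ⊢; exact hlt⟩
  | @tail g e _ h ih =>
    obtain ⟨hg, -, he, hlt, -⟩ := h
    obtain ⟨h1, h2, h3⟩ := ih
    have hgl := (mem_edges.1 hg).2.2.1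
    rw [← he] at hlt ⊢
    have hl : f.1.1 < g.2.1 := h1.trans hgl
    have e0 := ht_sub f.1 g.1 h1.ne (sl f.1 g.2)
    have e1 := ht_sub g.1 g.2 hgl.ne (sl f.1 g.2)
    have e2 := ht_sub f.1 g.2 hl.ne (sl f.1 g.2)
    rw [sub_self, zero_mul] at e2
    refine ⟨hl, ?_, ?_⟩
    · by_contra hcon
      nlinarith [mul_pos (show 0 < sl f.1 g.1 - sl f.1 g.2 by linarith) (sub_pos.2 h1),
        mul_pos (show 0 < sl g.1 g.2 - sl f.1 g.2 by linarith) (sub_pos.2 hgl)]
    · by_contra hcon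
      nlinarith [mul_pos (show 0 < sl f.1 g.2 - sl f.1 g.1 by linarith) (sub_pos.2 h1),
        mul_pos (show 0 < sl f.1 g.2 - sl g.1 g.2 by linarith) (sub_pos.2 hgl)]

/-- `V` is a convex chain: every point has a strictly supporting line from below. -/
def IsCup (V : Finset (ℝ × ℝ)) : Prop :=
  ∀ v ∈ V, ∃ s : ℝ, ∀ p ∈ V, p ≠ v → ht s v < ht s p

/-- If every convex chain inside `S` has at most `t` points, at most `t * n` edges leave `S`. -/
theorem edges_from_le (hx : Set.InjOn Prod.fst (P : Set (ℝ × ℝ))) (h3 : NoThree P) (c : ℕ)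
    (S : Finset (ℝ × ℝ)) (t : ℕ) (ht' : ∀ V ⊆ S, IsCup V → V.card ≤ t) :
    ((edges P c).filter fun e => e.1 ∈ S).card ≤ t * P.card := by
  classical
  have hroot := exists_root (P := P) (c := c)
  choose! r hr hr0 hr1 using hroot
  set F := (edges P c).filter fun e => e.1 ∈ S
  have hFE : ∀ e ∈ F, e ∈ edges P c := fun e he => (Finset.mem_filter.1 he).1
  have himg : (F.image r).card ≤ P.card := by
    refine Finset.card_le_card_of_injOn (fun e => e.1) ?_ ?_
    · intro e he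
      obtain ⟨e', he', rfl⟩ := Finset.mem_image.1 he
      exact (mem_edges.1 (hr e' (hFE e' he'))).1
    · intro a ha b hb (hab : a.1 = b.1)
      rw [Finset.mem_coe, Finset.mem_image] at ha hb
      obtain ⟨a', ha', rfl⟩ := ha
      obtain ⟨b', hb', rfl⟩ := hb
      have key : ∀ a b, a ∈ edges P c → b ∈ edges P c → a.1 = b.1 →
          (∀ g ∈ edges P c, g.2 = b.1 → ¬ sl g.1 g.2 < sl b.1 b.2) →
          ¬ sl a.1 a.2 < sl b.1 b.2 := by
        intro a b ha hb hab hb0 hlt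
        have hb' : (a.1, b.2) ∈ edges P c := by rw [hab]; exact hb
        rw [← hab] at hlt
        obtain ⟨z, hz, h1, h2⟩ := between hx h3 (u := a.1) (a := a.2) (b := b.2) ha hb' hlt
        exact hb0 (z, a.1) hz hab (by rw [← hab]; exact h2)
      have hA := hr a' (hFE _ ha')
      have hB := hr b' (hFE _ hb')
      exact same_right hx h3 hA hB hab (le_antisymm
        (not_lt.1 (key _ _ hB hA hab.symm (hr0 a' (hFE _ ha'))))
        (not_lt.1 (key _ _ hA hB hab (hr0 b' (hFE _ hb')))))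
  refine (Finset.card_le_mul_card_image F t fun ρ _ => ?_).trans (Nat.mul_le_mul_left t himg)
  set G := F.filter fun e => r e = ρ
  have cmp : ∀ a ∈ G, ∀ b ∈ G, a ≠ b →
      TransGen (Nxt P c) a b ∨ TransGen (Nxt P c) b a := by
    intro a ha b hb hne
    obtain ⟨haF, hra⟩ := Finset.mem_filter.1 ha
    obtain ⟨hbF, hrb⟩ := Finset.mem_filter.1 hb
    have h1 := hr1 a (hFE a haF)
    have h2 := hr1 b (hFE b hbF)
    rw [hra] at h1
    rw [hrb] at h2
    rcases ReflTransGen.total_of_right_unique (nxt_rightUnique hx h3 c) h1 h2 with h | h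
    · rcases reflTransGen_iff_eq_or_transGen.1 h with rfl | h
      · exact absurd rfl hne
      · exact .inl h
    · rcases reflTransGen_iff_eq_or_transGen.1 h with rfl | h
      · exact absurd rfl hne
      · exact .inr h
  have hinj : Set.InjOn (fun e : (ℝ × ℝ) × (ℝ × ℝ) => e.1) (G : Set _) := by
    intro a ha b hb (hab : a.1 = b.1)
    by_contra hne
    rcases cmp a ha b hb hne with h | h <;>
    · have := (anc_geom h).1
      rw [hab] at this
      exact lt_irrefl _ this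
  rw [← Finset.card_image_of_injOn hinj]
  refine ht' _ ?_ ?_
  · intro v hv
    obtain ⟨e, he, rfl⟩ := Finset.mem_image.1 hv
    exact (Finset.mem_filter.1 (Finset.mem_filter.1 he).1).2
  intro v hv
  obtain ⟨e, he, rfl⟩ := Finset.mem_image.1 hv
  obtain ⟨s, hs1, hs2⟩ : ∃ s, s < sl e.1 e.2 ∧
      ∀ f ∈ G, TransGen (Nxt P c) f e → sl f.1 e.1 < s := by
    set Lf := G.filter fun f => TransGen (Nxt P c) f e
    rcases Lf.eq_empty_or_nonempty with h | h
    · refine ⟨sl e.1 e.2 - 1, by linarith, fun f hf hfe => ?_⟩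
      have hmem : f ∈ Lf := Finset.mem_filter.2 ⟨hf, hfe⟩
      rw [h] at hmem
      exact absurd hmem (Finset.notMem_empty f)
    · obtain ⟨m, hm, hmax⟩ := Finset.exists_max_image Lf (fun f => sl f.1 e.1) h
      obtain ⟨s, hs1, hs2⟩ := exists_between (anc_geom (Finset.mem_filter.1 hm).2).2.2
      exact ⟨s, hs2, fun f hf hfe =>
        lt_of_le_of_lt (hmax f (Finset.mem_filter.2 ⟨hf, hfe⟩)) hs1⟩
  refine ⟨s, fun p hp hne => ?_⟩
  obtain ⟨f, hf, rfl⟩ := Finset.mem_image.1 hp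
  rcases cmp e he f hf (fun h => hne (by rw [h])) with h | h
  · obtain ⟨h1, h2, -⟩ := anc_geom h
    nlinarith [ht_sub e.1 f.1 h1.ne s,
      mul_pos (show 0 < sl e.1 f.1 - s by linarith) (sub_pos.2 h1)]
  · obtain ⟨h1, -, -⟩ := anc_geom h
    nlinarith [ht_sub f.1 e.1 h1.ne s,
      mul_pos (show 0 < s - sl f.1 e.1 by linarith [hs2 f hf h]) (sub_pos.2 h1)]

end Vale.Agent.P065
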