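import Vale.Agent.P065.Chains

/-!
k-sets and halving pairs for point sets covered by few convex-position classes.
-/

namespace Vale.Agent.P065

open Finset

/-- Reflection in the horizontal axis. -/
def refl' (p : ℝ × ℝ) : ℝ × ℝ := (p.1, -p.2)

lemma refl'_inj : Function.Injective refl' := by
  intro p q h; simp [refl', Prod.ext_iff] at h; exact Prod.ext h.1 h.2

lemma side_refl (u v p : ℝ × ℝ) : side (refl' u) (refl' v) (refl' p) = - side u v p := by
  simp [side, refl']; ring

lemma injOn_refl {P : Finset (ℝ × ℝ)} (hx : Set.InjOn Prod.fst (P : Set (ℝ × ℝ))) :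
    Set.InjOn Prod.fst ((P.image refl' : Finset (ℝ × ℝ)) : Set (ℝ × ℝ)) := by
  intro a ha b hb (h : a.1 = b.1)
  rw [Finset.coe_image] at ha hb
  obtain ⟨a', ha', rfl⟩ := ha
  obtain ⟨b', hb', rfl⟩ := hb
  rw [hx ha' hb' h]

lemma noThree_image {P : Finset (ℝ × ℝ)} (h3 : NoThree P) (g : ℝ × ℝ → ℝ × ℝ) (r : ℝ)
    (hr : r ≠ 0) (hg : ∀ u v p, side (g u) (g v) (g p) = r * side u v p) :
    NoThree (P.image g) := by
  intro u hu v hv w hw huv huw hvw
  obtain ⟨u', hu', rfl⟩ := Finset.mem_image.1 hu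
  obtain ⟨v', hv', rfl⟩ := Finset.mem_image.1 hv
  obtain ⟨w', hw', rfl⟩ := Finset.mem_image.1 hw
  rw [hg]
  exact mul_ne_zero hr (h3 u' hu' v' hv' w' hw' (fun h => huv (by rw [h]))
    (fun h => huw (by rw [h])) (fun h => hvw (by rw [h])))

lemma noThree_refl {P : Finset (ℝ × ℝ)} (h3 : NoThree P) : NoThree (P.image refl') :=
  noThree_image h3 refl' (-1) (by norm_num) fun u v p => by rw [side_refl]; ring

lemma card_sides {P : Finset (ℝ × ℝ)} (h3 : NoThree P) {u v : ℝ × ℝ} (hu : u ∈ P) (hv : v ∈ P)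
    (h : u ≠ v) :
    (P.filter fun p => 0 < side u v p).card + (P.filter fun p => side u v p < 0).card + 2
      = P.card := by
  classical
  have hd : (P.filter fun p => ¬ (0 < side u v p)) =
      insert u (insert v (P.filter fun p => side u v p < 0)) := by
    ext p
    simp only [Finset.mem_filter, Finset.mem_insert, not_lt]
    constructor
    · rintro ⟨hp, hle⟩
      rcases hle.lt_or_eq with h' | h'
      · exact .inr (.inr ⟨hp, h'⟩)
      · by_cases hpu : p = u
        · exact .inl hpu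
        · by_cases hpv : p = v
          · exact .inr (.inl hpv)
          · exact absurd h' (h3 u hu v hv p hp h (Ne.symm hpu) (Ne.symm hpv))
    · rintro (rfl | rfl | ⟨hp, h'⟩)
      · exact ⟨hu, le_of_eq (by unfold side; ring)⟩
      · exact ⟨hv, le_of_eq (by unfold side; ring)⟩
      · exact ⟨hp, h'.le⟩
  rw [← Finset.card_filter_add_card_filter_not (s := P) (fun p => 0 < side u v p), hd,
    Finset.card_insert_of_notMem, Finset.card_insert_of_notMem]
  · omega
  · simp [side, mul_comm]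
  · simp [side, h]

lemma edges_refl {P : Finset (ℝ × ℝ)} (h3 : NoThree P) {c : ℕ} {e : (ℝ × ℝ) × (ℝ × ℝ)}
    (he : e ∈ edges P c) :
    (refl' e.1, refl' e.2) ∈ edges (P.image refl') (P.card - 2 - c) := by
  obtain ⟨hu, hv, hl, hc⟩ := mem_edges.1 he
  refine mem_edges.2 ⟨Finset.mem_image_of_mem _ hu, Finset.mem_image_of_mem _ hv, hl, ?_⟩
  have := card_sides h3 hu hv (fun h => hl.ne (congrArg Prod.fst h))
  rw [Finset.filter_image, Finset.card_image_of_injective _ refl'_inj]
  simp only [side_refl, Left.neg_pos_iff]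
  omega

lemma cup_three {V : Finset (ℝ × ℝ)} (hV : IsCup V) {u v w : ℝ × ℝ} (hu : u ∈ V) (hv : v ∈ V)
    (hw : w ∈ V) (h1 : u.1 < v.1) (h2 : v.1 < w.1) : side u w v < 0 := by
  obtain ⟨s, hs⟩ := hV v hv
  have a1 := hs u hu fun h => h1.ne (congrArg Prod.fst h)
  have a2 := hs w hw fun h => h2.ne' (congrArg Prod.fst h)
  have : side u w v = (w.1 - v.1) * (ht s v - ht s u) + (v.1 - u.1) * (ht s v - ht s w) := by
    unfold side ht; ring
  rw [this]
  nlinarith [mul_pos (sub_pos.2 h2) (sub_pos.2 a1), mul_pos (sub_pos.2 h1) (sub_pos.2 a2)]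

/-- A chain without three points forming a cup has at most two points. -/
lemma cup_small {S V : Finset (ℝ × ℝ)} (hx : Set.InjOn Prod.fst (S : Set (ℝ × ℝ)))
    (hS : ∀ u ∈ S, ∀ v ∈ S, ∀ w ∈ S, u.1 < v.1 → v.1 < w.1 → ¬ side u w v < 0)
    (hVS : V ⊆ S) (hV : IsCup V) : V.card ≤ 2 := by
  classical
  by_contra hcon
  have hne : V.Nonempty := Finset.card_pos.1 (by omega)
  obtain ⟨u, hu, humin⟩ := Finset.exists_min_image V Prod.fst hne
  obtain ⟨w, hw, hwmax⟩ := Finset.exists_max_image V Prod.fst hne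
  obtain ⟨v, hv, hvu⟩ : ∃ v ∈ V, v ∉ ({u, w} : Finset (ℝ × ℝ)) := by
    by_contra h
    push Not at h
    have h1 := Finset.card_le_card (show V ⊆ {u, w} from h)
    have h2 : ({u, w} : Finset (ℝ × ℝ)).card ≤ 2 := Finset.card_le_two
    omega
  simp only [Finset.mem_insert, Finset.mem_singleton, not_or] at hvu
  have h1 : u.1 < v.1 := (humin v hv).lt_of_ne fun h => hvu.1 (hx (hVS hv) (hVS hu) h.symm)
  have h2 : v.1 < w.1 := (hwmax v hv).lt_of_ne fun h => hvu.2 (hx (hVS hv) (hVS hw) h)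
  exact hS u (hVS hu) v (hVS hv) w (hVS hw) h1 h2 (cup_three hV hu hv hw h1 h2)

lemma cup_convex {V : Finset (ℝ × ℝ)} (hV : IsCup V) : InConvexPosition V := by
  intro v hv hmem
  obtain ⟨s, hs⟩ := hV v hv
  have hlin : IsLinearMap ℝ (fun p : ℝ × ℝ => p.2 - s * p.1) :=
    ⟨fun a b => by simp; ring, fun a b => by simp; ring⟩
  have hsub : ((V : Set (ℝ × ℝ)) \ {v}) ⊆ {p | ht s v < p.2 - s * p.1} :=
    fun p hp => hs p hp.1 hp.2
  exact lt_irrefl (ht s v) (convexHull_min hsub (convex_halfSpace_gt hlin _) hmem)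

lemma convexPosition_no_both {S : Finset (ℝ × ℝ)} (hS : InConvexPosition S)
    {u w u' w' v : ℝ × ℝ} (hu : u ∈ S) (hw : w ∈ S) (hu' : u' ∈ S) (hw' : w' ∈ S) (hv : v ∈ S)
    (h1 : u.1 < v.1) (h2 : v.1 < w.1) (h1' : u'.1 < v.1) (h2' : v.1 < w'.1)
    (hb : side u w v < 0) (ha : 0 ≤ side u' w' v) : False := by
  set T := (S : Set (ℝ × ℝ)) \ {v}
  have mem : ∀ q ∈ S, q.1 ≠ v.1 → q ∈ convexHull ℝ T :=
    fun q hq hne => subset_convexHull ℝ T ⟨hq, fun h => hne (by rw [Set.mem_singleton_iff.1 h])⟩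
  have chord : ∀ a b : ℝ × ℝ, a ∈ S → b ∈ S → a.1 < v.1 → v.1 < b.1 →
      (v.1, v.2 - side a b v / (b.1 - a.1)) ∈ convexHull ℝ T := by
    intro a b ha hb' hav hvb
    have hab : b.1 - a.1 ≠ 0 := by linarith
    have n1 : 0 ≤ (b.1 - v.1) / (b.1 - a.1) := div_nonneg (by linarith) (by linarith)
    have n2 : 0 ≤ (v.1 - a.1) / (b.1 - a.1) := div_nonneg (by linarith) (by linarith)
    have := (convex_convexHull ℝ T) (mem a ha hav.ne) (mem b hb' hvb.ne') n1 n2
      (by field_simp; ring)
    convert this using 1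
    refine Prod.ext ?_ ?_
    · simp only [Prod.fst_add, Prod.smul_fst, smul_eq_mul]; field_simp; ring
    · simp only [side, Prod.snd_add, Prod.smul_snd, smul_eq_mul]; field_simp; ring
  have q1 := chord u w hu hw h1 h2
  have q2 := chord u' w' hu' hw' h1' h2'
  set A := v.2 - side u w v / (w.1 - u.1) with hA
  set B := v.2 - side u' w' v / (w'.1 - u'.1) with hB
  have hAv : v.2 < A := by
    have : side u w v / (w.1 - u.1) < 0 := div_neg_of_neg_of_pos hb (by linarith)
    linarith
  have hBv : B ≤ v.2 := by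
    have : 0 ≤ side u' w' v / (w'.1 - u'.1) := div_nonneg ha (by linarith)
    linarith
  have hAB : A - B ≠ 0 := by linarith
  have m1 : 0 ≤ (v.2 - B) / (A - B) := div_nonneg (by linarith) (by linarith)
  have m2 : 0 ≤ (A - v.2) / (A - B) := div_nonneg (by linarith) (by linarith)
  have := (convex_convexHull ℝ T) q1 q2 m1 m2 (by field_simp; ring)
  refine hS v hv ?_
  convert this using 1
  refine Prod.ext ?_ ?_
  · simp only [Prod.fst_add, Prod.smul_fst, smul_eq_mul]; field_simp; ring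
  · simp only [Prod.snd_add, Prod.smul_snd, smul_eq_mul]; field_simp; ring

/-- The points of `S` not below any chord of `S`. -/
noncomputable def upper (S : Finset (ℝ × ℝ)) : Finset (ℝ × ℝ) :=
  letI := Classical.decPred fun v : ℝ × ℝ =>
    ¬∃ u ∈ S, ∃ w ∈ S, u.1 < v.1 ∧ v.1 < w.1 ∧ side u w v < 0
  S.filter fun v => ¬∃ u ∈ S, ∃ w ∈ S, u.1 < v.1 ∧ v.1 < w.1 ∧ side u w v < 0

variable {P : Finset (ℝ × ℝ)}

lemma edges_convex (hx : Set.InjOn Prod.fst (P : Set (ℝ × ℝ))) (h3 : NoThree P) (c : ℕ)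
    {S : Finset (ℝ × ℝ)} (hSP : S ⊆ P) (hS : InConvexPosition S) :
    ((edges P c).filter fun e => e.1 ∈ S).card ≤ 4 * P.card := by
  classical
  have hu : ∀ v, v ∈ upper S ↔
      v ∈ S ∧ ¬∃ u ∈ S, ∃ w ∈ S, u.1 < v.1 ∧ v.1 < w.1 ∧ side u w v < 0 := fun v => by
    simp [upper]
  have hU : ((edges P c).filter fun e => e.1 ∈ upper S).card ≤ 2 * P.card := by
    refine edges_from_le hx h3 c _ 2 fun V hV hc => cup_small ?_ ?_ hV hc
    · exact hx.mono fun v hv => hSP ((hu v).1 hv).1
    · intro u hu1 v hv1 w hw1 a b h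
      exact ((hu v).1 hv1).2 ⟨u, ((hu u).1 hu1).1, w, ((hu w).1 hw1).1, a, b, h⟩
  have hL : ((edges P c).filter fun e => e.1 ∈ S \ upper S).card ≤ 2 * P.card := by
    have key := edges_from_le (injOn_refl hx) (noThree_refl h3) (P.card - 2 - c)
      ((S \ upper S).image refl') 2 (fun V hV hc => cup_small ?_ ?_ hV hc)
    · rw [Finset.card_image_of_injective _ refl'_inj] at key
      refine le_trans (Finset.card_le_card_of_injOn (fun e => (refl' e.1, refl' e.2)) ?_ ?_) key
      · intro e he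
        obtain ⟨he1, he2⟩ := Finset.mem_filter.1 he
        exact Finset.mem_filter.2 ⟨edges_refl h3 he1, Finset.mem_image_of_mem _ he2⟩
      · intro a _ b _ h
        simp only [Prod.ext_iff] at h
        exact Prod.ext (refl'_inj (Prod.ext h.1.1 h.1.2)) (refl'_inj (Prod.ext h.2.1 h.2.2))
    · refine (injOn_refl hx).mono ?_
      exact_mod_cast Finset.image_subset_image (Finset.sdiff_subset.trans hSP)
    · intro a ha b hb d hd h1 h2 h
      obtain ⟨a', ha', rfl⟩ := Finset.mem_image.1 ha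
      obtain ⟨b', hb', rfl⟩ := Finset.mem_image.1 hb
      obtain ⟨d', hd', rfl⟩ := Finset.mem_image.1 hd
      rw [side_refl] at h
      obtain ⟨hbS, hbU⟩ := Finset.mem_sdiff.1 hb'
      obtain ⟨u, hu1, w, hw1, k1, k2, k3⟩ : ∃ u ∈ S, ∃ w ∈ S,
          u.1 < b'.1 ∧ b'.1 < w.1 ∧ side u w b' < 0 := by
        by_contra hcon; exact hbU ((hu b').2 ⟨hbS, hcon⟩)
      exact convexPosition_no_both hS hu1 hw1 (Finset.mem_sdiff.1 ha').1
        (Finset.mem_sdiff.1 hd').1 hbS k1 k2 h1 h2 k3 (by linarith)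
  have hsub : ((edges P c).filter fun e => e.1 ∈ S) ⊆
      ((edges P c).filter fun e => e.1 ∈ upper S) ∪
        ((edges P c).filter fun e => e.1 ∈ S \ upper S) := by
    intro e he
    obtain ⟨h1, h2⟩ := Finset.mem_filter.1 he
    by_cases h : e.1 ∈ upper S
    · exact Finset.mem_union_left _ (Finset.mem_filter.2 ⟨h1, h⟩)
    · exact Finset.mem_union_right _
        (Finset.mem_filter.2 ⟨h1, Finset.mem_sdiff.2 ⟨h2, h⟩⟩)
  have := (Finset.card_le_card hsub).trans (Finset.card_union_le _ _)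
  omega

lemma edges_bound (hx : Set.InjOn Prod.fst (P : Set (ℝ × ℝ))) (h3 : NoThree P) {L M : ℕ}
    (C : Fin L → Finset (ℝ × ℝ)) (R : Finset (ℝ × ℝ)) (hCP : ∀ i, C i ⊆ P)
    (hC : ∀ i, InConvexPosition (C i))
    (hR : ∀ V ⊆ R, InConvexPosition V → V.card ≤ M)
    (hcov : ∀ p ∈ P, (∃ i, p ∈ C i) ∨ p ∈ R) (c : ℕ) :
    (edges P c).card ≤ P.card * (4 * L + M) := by
  classical
  have hsub : edges P c ⊆ ((edges P c).filter fun e => e.1 ∈ R) ∪
      Finset.univ.biUnion fun i => (edges P c).filter fun e => e.1 ∈ C i := by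
    intro e he
    rcases hcov e.1 (mem_edges.1 he).1 with ⟨i, hi⟩ | h
    · exact Finset.mem_union_right _
        (Finset.mem_biUnion.2 ⟨i, Finset.mem_univ i, Finset.mem_filter.2 ⟨he, hi⟩⟩)
    · exact Finset.mem_union_left _ (Finset.mem_filter.2 ⟨he, h⟩)
  have h1 := (Finset.card_le_card hsub).trans (Finset.card_union_le _ _)
  have h2 : (Finset.univ.biUnion fun i => (edges P c).filter fun e => e.1 ∈ C i).card
      ≤ L * (4 * P.card) := by
    have := Finset.card_biUnion_le_card_mul (Finset.univ : Finset (Fin L))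
      (fun i => (edges P c).filter fun e => e.1 ∈ C i) (4 * P.card)
      (fun i _ => edges_convex hx h3 c (hCP i) (hC i))
    simpa using this
  have h3' := edges_from_le hx h3 c R M fun V hV hc => hR V hV (cup_convex hc)
  calc (edges P c).card ≤ M * P.card + L * (4 * P.card) := h1.trans (add_le_add h3' h2)
    _ = P.card * (4 * L + M) := by ring

/-- Top `k`-sets: `k`-subsets strictly above the rest at some slope. -/
def topSets (P : Finset (ℝ × ℝ)) (k : ℕ) : Set (Finset (ℝ × ℝ)) :=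
  {A | A ⊆ P ∧ A.card = k ∧ ∃ s, ∀ w ∈ A, ∀ v ∈ P, v ∉ A → ht s v < ht s w}

lemma topSets_finite (P : Finset (ℝ × ℝ)) (k : ℕ) : (topSets P k).Finite :=
  P.powerset.finite_toSet.subset fun _ hA => Finset.mem_powerset.2 hA.1

lemma topSets_le (hx : Set.InjOn Prod.fst (P : Set (ℝ × ℝ))) (h3 : NoThree P) {k : ℕ}
    (hk : 1 ≤ k) : (topSets P k).ncard ≤ (edges P (k - 1)).card + 1 := by
  classical
  let I : Set (Finset (ℝ × ℝ)) :=
    {A | A ⊆ P ∧ A.card = k ∧ ∀ w ∈ A, ∀ v ∈ P, v ∉ A → v.1 < w.1}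
  let T : Finset (Finset (ℝ × ℝ)) := (edges P (k - 1)).image fun e =>
    insert e.1 (P.filter fun p => 0 < side e.1 e.2 p)
  have hI : I.ncard ≤ 1 := by
    have hf : I.Finite := P.powerset.finite_toSet.subset fun _ hA => Finset.mem_powerset.2 hA.1
    rw [Set.ncard_le_one hf]
    rintro A ⟨hA, cA, hA'⟩ B ⟨hB, cB, hB'⟩
    by_contra hne
    obtain ⟨a, ha, haB⟩ := Finset.not_subset.1 fun h : A ⊆ B =>
      hne (Finset.eq_of_subset_of_card_le h (by omega))
    obtain ⟨b, hb, hbA⟩ := Finset.not_subset.1 fun h : B ⊆ A =>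
      hne (Finset.eq_of_subset_of_card_le h (by omega)).symm
    exact lt_asymm (hA' a ha b (hB hb) hbA) (hB' b hb a (hA ha) haB)
  have hsub : topSets P k ⊆ (T : Set (Finset (ℝ × ℝ))) ∪ I := by
    rintro A ⟨hAP, hAk, s, hs⟩
    let Q := (A ×ˢ (P \ A)).filter fun e => e.1.1 < e.2.1
    rcases Q.eq_empty_or_nonempty with hQ | hQ
    · right
      refine ⟨hAP, hAk, fun w hw v hv hvA => ?_⟩
      have hne : w.1 ≠ v.1 := fun h => hvA (hx (hAP hw) hv h ▸ hw)
      refine (lt_or_gt_of_ne hne).resolve_left fun h => ?_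
      exact Finset.notMem_empty (w, v) (hQ ▸ Finset.mem_filter.2
        ⟨Finset.mem_product.2 ⟨hw, Finset.mem_sdiff.2 ⟨hv, hvA⟩⟩, h⟩)
    · left
      obtain ⟨⟨w, v⟩, he, hmax⟩ := Finset.exists_max_image Q (fun e => sl e.1 e.2) hQ
      simp only [Q, Finset.mem_filter, Finset.mem_product, Finset.mem_sdiff] at he hmax
      obtain ⟨⟨hw, hv, hvA⟩, hl⟩ := he
      set r := sl w v
      have hrs : r < s := by
        by_contra hcon
        nlinarith [ht_sub w v hl.ne s, hs w hw v hv hvA,
          mul_nonneg (sub_nonneg.2 (not_lt.1 hcon)) (sub_nonneg.2 hl.le)]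
      have weak : ∀ a ∈ A, ∀ b ∈ P, b ∉ A → ht r b ≤ ht r a := by
        intro a ha b hb hbA
        rcases lt_or_ge a.1 b.1 with h | h
        · have := hmax (a, b) ⟨⟨ha, hb, hbA⟩, h⟩
          simp only at this
          nlinarith [ht_sub a b h.ne r, mul_nonneg (sub_nonneg.2 this) (sub_nonneg.2 h.le)]
        · have := hs a ha b hb hbA
          unfold ht at this ⊢
          nlinarith [mul_nonneg (sub_nonneg.2 hrs.le) (sub_nonneg.2 h)]
      have heq : ht r v = ht r w := by
        have := ht_sub w v hl.ne r; rw [sub_self, zero_mul] at this; linarith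
      have hwv : w ≠ v := fun h => hl.ne (congrArg Prod.fst h)
      have habove : (P.filter fun p => 0 < side w v p) = A.erase w := by
        rw [above_eq hl]
        ext p
        simp only [Finset.mem_filter, Finset.mem_erase]
        constructor
        · rintro ⟨hp, hlt⟩
          refine ⟨fun h => by rw [h] at hlt; exact lt_irrefl _ hlt, ?_⟩
          by_contra hpA
          exact not_lt.2 (weak w hw p hp hpA) hlt
        · rintro ⟨hne, hpA⟩
          refine ⟨hAP hpA, lt_of_le_of_ne (heq ▸ weak p hpA v hv hvA) fun h => ?_⟩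
          rcases tie hx h3 (hAP hw) hv (hAP hpA) hwv h.symm with h' | h'
          · exact hne h'
          · exact hvA (h' ▸ hpA)
      refine Finset.mem_image.2 ⟨(w, v), mem_edges.2 ⟨hAP hw, hv, hl, ?_⟩, ?_⟩
      · simp only; rw [habove, Finset.card_erase_of_mem hw, hAk]
      · simp only; rw [habove, Finset.insert_erase hw]
  have hfI : I.Finite := P.powerset.finite_toSet.subset fun _ hA => Finset.mem_powerset.2 hA.1
  calc (topSets P k).ncard ≤ ((T : Set (Finset (ℝ × ℝ))) ∪ I).ncard :=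
        Set.ncard_le_ncard hsub (T.finite_toSet.union hfI)
    _ ≤ (T : Set (Finset (ℝ × ℝ))).ncard + I.ncard := Set.ncard_union_le _ _
    _ ≤ (edges P (k - 1)).card + 1 := by
        rw [Set.ncard_coe_finset]; exact add_le_add Finset.card_image_le hI

lemma exists_gt_all (F : Finset ℝ) : ∃ s, ∀ x ∈ F, x < s ∧ -s < x := by
  refine ⟨(∑ x ∈ F, |x|) + 1, fun x hx => ?_⟩
  have := Finset.single_le_sum (fun y _ => abs_nonneg y) hx
  constructor <;> linarith [le_abs_self x, neg_abs_le x]

lemma kSets_subset (hx : Set.InjOn Prod.fst (P : Set (ℝ × ℝ))) {k : ℕ} {A : Finset (ℝ × ℝ)}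
    (hA : A ∈ kSets P k) :
    A ∈ topSets P k ∨ A.image refl' ∈ topSets (P.image refl') k := by
  obtain ⟨hAP, hAk, a, b, t, hab, hin, hout⟩ := hA
  rcases lt_trichotomy b 0 with hb | hb | hb
  · right
    refine ⟨Finset.image_subset_image hAP,
      by rw [Finset.card_image_of_injective _ refl'_inj, hAk], a / b, fun w hw v hv hvA => ?_⟩
    obtain ⟨w', hw', rfl⟩ := Finset.mem_image.1 hw
    obtain ⟨v', hv', rfl⟩ := Finset.mem_image.1 hv
    have h1 := hin w' hw'
    have h2 := hout v' hv' fun h => hvA (Finset.mem_image_of_mem _ h)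
    have hbn : b ≠ 0 := hb.ne
    have e : ∀ p, ht (a / b) (refl' p) = (a * p.1 + b * p.2) / (-b) := fun p => by
      unfold ht refl'; field_simp; ring
    rw [e, e]
    exact div_lt_div_of_pos_right (by linarith) (by linarith)
  · left
    subst hb
    have ha : a ≠ 0 := fun h => hab (by simp [h])
    obtain ⟨s₀, hs₀⟩ := exists_gt_all ((P ×ˢ P).image fun e => sl e.1 e.2)
    have hmem : ∀ w ∈ A, ∀ v ∈ P, sl w v < s₀ ∧ -s₀ < sl w v := fun w hw v hv =>
      hs₀ _ (Finset.mem_image.2 ⟨(w, v), Finset.mem_product.2 ⟨hAP hw, hv⟩, rfl⟩)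
    have hlt : ∀ w ∈ A, ∀ v ∈ P, v ∉ A → 0 < a * (w.1 - v.1) := fun w hw v hv hvA => by
      have := hin w hw; have := hout v hv hvA; nlinarith
    rcases lt_or_gt_of_ne ha with ha | ha
    · refine ⟨hAP, hAk, s₀, fun w hw v hv hvA => ?_⟩
      have h : w.1 < v.1 := by nlinarith [hlt w hw v hv hvA]
      nlinarith [ht_sub w v h.ne s₀, mul_pos (sub_pos.2 (hmem w hw v hv).1) (sub_pos.2 h)]
    · refine ⟨hAP, hAk, -s₀, fun w hw v hv hvA => ?_⟩
      have h : v.1 < w.1 := by nlinarith [hlt w hw v hv hvA]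
      nlinarith [ht_sub w v h.ne' (-s₀), mul_pos (sub_pos.2 (hmem w hw v hv).2) (sub_pos.2 h)]
  · left
    refine ⟨hAP, hAk, -(a / b), fun w hw v hv hvA => ?_⟩
    have h1 := hin w hw
    have h2 := hout v hv hvA
    have hbn : b ≠ 0 := hb.ne'
    have e : ∀ p, ht (-(a / b)) p = (a * p.1 + b * p.2) / b := fun p => by
      unfold ht; field_simp; ring
    rw [e, e]
    exact div_lt_div_of_pos_right (by linarith) hb

lemma kSets_generic (hx : Set.InjOn Prod.fst (P : Set (ℝ × ℝ))) (h3 : NoThree P) {L M : ℕ}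
    (C : Fin L → Finset (ℝ × ℝ)) (R : Finset (ℝ × ℝ)) (hCP : ∀ i, C i ⊆ P)
    (hC : ∀ i, InConvexPosition (C i))
    (hR : ∀ V ⊆ R, InConvexPosition V → V.card ≤ M)
    (hcov : ∀ p ∈ P, (∃ i, p ∈ C i) ∨ p ∈ R) {k : ℕ} (hk : 1 ≤ k) (hkn : k < P.card) :
    (kSets P k).ncard ≤ 2 * P.card * (4 * L + M) + 2 := by
  classical
  have hsub : kSets P k ⊆ topSets P k ∪
      (fun B : Finset (ℝ × ℝ) => B.image refl') '' topSets (P.image refl') k := by
    intro A hA
    rcases kSets_subset hx hA with h | h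
    · exact .inl h
    · refine .inr ⟨_, h, ?_⟩
      simp only [Finset.image_image]
      convert Finset.image_id (s := A)
      ext p <;> simp [refl']
  have t1 := topSets_le hx h3 hk
  have t2 := topSets_le (injOn_refl hx) (noThree_refl h3) (k := k) hk
  have e1 := edges_bound hx h3 C R hCP hC hR hcov (k - 1)
  have e2 : (edges (P.image refl') (k - 1)).card ≤ (edges P (P.card - 2 - (k - 1))).card := by
    refine Finset.card_le_card_of_injOn (fun e => (refl' e.1, refl' e.2)) ?_ ?_
    · intro e he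
      have := edges_refl (noThree_refl h3) he
      rw [Finset.card_image_of_injective _ refl'_inj, Finset.image_image] at this
      have hid : P.image (refl' ∘ refl') = P := by
        convert Finset.image_id (s := P); ext p <;> simp [refl']
      rwa [hid] at this
    · intro a _ b _ h
      simp only [Prod.ext_iff] at h
      exact Prod.ext (refl'_inj (Prod.ext h.1.1 h.1.2)) (refl'_inj (Prod.ext h.2.1 h.2.2))
  have e3 := edges_bound hx h3 C R hCP hC hR hcov (P.card - 2 - (k - 1))
  have hfin := ((topSets_finite (P.image refl') k).image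
    fun B : Finset (ℝ × ℝ) => B.image refl')
  have hle := (Set.ncard_le_ncard hsub ((topSets_finite P k).union hfin)).trans
    (Set.ncard_union_le _ _)
  have him := Set.ncard_image_le (f := fun B : Finset (ℝ × ℝ) => B.image refl')
    (topSets_finite (P.image refl') k)
  rw [show 2 * P.card * (4 * L + M) = P.card * (4 * L + M) + P.card * (4 * L + M) by ring]
  omega

lemma halving_generic (hx : Set.InjOn Prod.fst (P : Set (ℝ × ℝ))) (h3 : NoThree P) {L M : ℕ}
    (C : Fin L → Finset (ℝ × ℝ)) (R : Finset (ℝ × ℝ)) (hCP : ∀ i, C i ⊆ P)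
    (hC : ∀ i, InConvexPosition (C i))
    (hR : ∀ V ⊆ R, InConvexPosition V → V.card ≤ M)
    (hcov : ∀ p ∈ P, (∃ i, p ∈ C i) ∨ p ∈ R) :
    (halvingPairs P).ncard ≤ P.card * (4 * L + M) := by
  classical
  refine le_trans ?_ (edges_bound hx h3 C R hCP hC hR hcov ((P.card - 2) / 2))
  have hsub : halvingPairs P ⊆
      (((edges P ((P.card - 2) / 2)).image fun e => ({e.1, e.2} : Finset (ℝ × ℝ))) :
        Set (Finset (ℝ × ℝ))) := by
    rintro s ⟨u, hu, v, hv, huv, rfl, hl, hr⟩
    rw [Finset.mem_coe, Finset.mem_image]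
    rcases lt_trichotomy u.1 v.1 with h | h | h
    · exact ⟨(u, v), mem_edges.2 ⟨hu, hv, h, by simp only; omega⟩, rfl⟩
    · exact absurd (hx hu hv h) huv
    · refine ⟨(v, u), mem_edges.2 ⟨hv, hu, h, ?_⟩, Finset.pair_comm _ _⟩
      simp only
      have : (P.filter fun p => 0 < side v u p) = P.filter fun p => side u v p < 0 := by
        refine Finset.filter_congr fun p _ => ?_
        have : side v u p = - side u v p := by unfold side; ring
        rw [this]; exact Left.neg_pos_iff
      rw [this]; omega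
  refine (Set.ncard_le_ncard hsub (Finset.finite_toSet _)).trans ?_
  rw [Set.ncard_coe_finset]
  exact Finset.card_image_le

/-- Shear. -/
def shear (ε : ℝ) : (ℝ × ℝ) →ₗ[ℝ] (ℝ × ℝ) where
  toFun p := (p.1 + ε * p.2, p.2)
  map_add' p q := by simp; ring
  map_smul' r p := by simp; ring

lemma shear_inj (ε : ℝ) : Function.Injective (shear ε) := by
  intro p q h
  simp [shear, Prod.ext_iff] at h
  obtain ⟨h1, h2⟩ := h
  refine Prod.ext ?_ h2
  rw [h2] at h1; linarith

lemma side_shear (ε : ℝ) (u v p : ℝ × ℝ) :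
    side (shear ε u) (shear ε v) (shear ε p) = side u v p := by
  simp [side, shear]; ring

lemma exists_shear (P : Finset (ℝ × ℝ)) :
    ∃ ε, Set.InjOn Prod.fst ((P.image (shear ε) : Finset (ℝ × ℝ)) : Set (ℝ × ℝ)) := by
  classical
  obtain ⟨ε, hε⟩ := Infinite.exists_notMem_finset
    ((P ×ˢ P).image fun e => -(e.2.1 - e.1.1) / (e.2.2 - e.1.2))
  refine ⟨ε, ?_⟩
  intro a ha b hb (h : a.1 = b.1)
  rw [Finset.coe_image] at ha hb
  obtain ⟨p, hp, rfl⟩ := ha
  obtain ⟨q, hq, rfl⟩ := hb
  simp [shear] at h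
  by_cases h2 : q.2 = p.2
  · rw [h2] at h
    have : p.1 = q.1 := by linarith
    rw [show p = q from Prod.ext this h2.symm]
  · exfalso
    refine hε (Finset.mem_image.2 ⟨(p, q), Finset.mem_product.2 ⟨hp, hq⟩, ?_⟩)
    have : q.2 - p.2 ≠ 0 := sub_ne_zero.2 h2
    simp only
    field_simp
    linarith

lemma convexPosition_shear (ε : ℝ) {S : Finset (ℝ × ℝ)} :
    InConvexPosition (S.image (shear ε)) ↔ InConvexPosition S := by
  have key : ∀ p, shear ε p ∈
      convexHull ℝ (((S.image (shear ε) : Finset (ℝ × ℝ)) : Set (ℝ × ℝ)) \ {shear ε p}) ↔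
      p ∈ convexHull ℝ ((S : Set (ℝ × ℝ)) \ {p}) := by
    intro p
    rw [Finset.coe_image, ← Set.image_singleton, ← Set.image_diff (shear_inj ε),
      ← LinearMap.image_convexHull, (shear_inj ε).mem_set_image]
  constructor
  · intro h p hp hmem
    exact h _ (Finset.mem_image_of_mem _ hp) ((key p).2 hmem)
  · intro h p hp
    obtain ⟨q, hq, rfl⟩ := Finset.mem_image.1 hp
    exact fun hmem => h q hq ((key q).1 hmem)

theorem main (P : Finset (ℝ × ℝ)) (h3 : NoThree P) (L M : ℕ)
    (C : Fin L → Finset (ℝ × ℝ)) (R : Finset (ℝ × ℝ)) (hCP : ∀ i, C i ⊆ P)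
    (hC : ∀ i, InConvexPosition (C i))
    (hR : ∀ V ⊆ R, InConvexPosition V → V.card ≤ M)
    (hcov : ∀ p ∈ P, (∃ i, p ∈ C i) ∨ p ∈ R) :
    (∀ k, 1 ≤ k → k < P.card → (kSets P k).ncard ≤ 2 * P.card * (4 * L + M) + 2) ∧
      (halvingPairs P).ncard ≤ P.card * (4 * L + M) := by
  classical
  obtain ⟨ε, hx⟩ := exists_shear P
  set φ := shear ε
  have hcard : (P.image φ).card = P.card := Finset.card_image_of_injective _ (shear_inj ε)
  have h3' : NoThree (P.image φ) :=
    noThree_image h3 φ 1 one_ne_zero fun u v p => by rw [side_shear, one_mul]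
  have hCP' : ∀ i, (C i).image φ ⊆ P.image φ := fun i => Finset.image_subset_image (hCP i)
  have hC' : ∀ i, InConvexPosition ((C i).image φ) :=
    fun i => (convexPosition_shear ε).2 (hC i)
  have hR' : ∀ V ⊆ R.image φ, InConvexPosition V → V.card ≤ M := by
    intro V hV hVc
    obtain ⟨W, hW, rfl⟩ := Finset.subset_image_iff.1 hV
    rw [Finset.card_image_of_injective _ (shear_inj ε)]
    exact hR W hW ((convexPosition_shear ε).1 hVc)
  have hcov' : ∀ p ∈ P.image φ, (∃ i, p ∈ (C i).image φ) ∨ p ∈ R.image φ := by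
    intro p hp
    obtain ⟨q, hq, rfl⟩ := Finset.mem_image.1 hp
    rcases hcov q hq with ⟨i, hi⟩ | h
    · exact .inl ⟨i, Finset.mem_image_of_mem _ hi⟩
    · exact .inr (Finset.mem_image_of_mem _ h)
  have himg : Function.Injective fun A : Finset (ℝ × ℝ) => A.image φ :=
    Finset.image_injective (shear_inj ε)
  constructor
  · intro k hk hkn
    have key := kSets_generic hx h3' _ _ hCP' hC' hR' hcov' hk (by omega)
    rw [hcard] at key
    refine le_trans (Set.ncard_le_ncard_of_injOn (fun A => A.image φ) ?_ himg.injOn ?_) key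
    · rintro A ⟨hA, hAk, a, b, t, hab, hin, hout⟩
      refine ⟨Finset.image_subset_image hA,
        by rw [Finset.card_image_of_injective _ (shear_inj ε), hAk],
        a, b - ε * a, t, ?_, ?_, ?_⟩
      · intro h
        simp [Prod.ext_iff] at h
        obtain ⟨rfl, hb⟩ := h
        exact hab (by simp at hb; simp [hb])
      · intro p hp
        obtain ⟨q, hq, rfl⟩ := Finset.mem_image.1 hp
        have := hin q hq
        simp [φ, shear]; linarith
      · intro p hp hpA
        obtain ⟨q, hq, rfl⟩ := Finset.mem_image.1 hp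
        have := hout q hq fun h => hpA (Finset.mem_image_of_mem _ h)
        simp [φ, shear]; linarith
    · exact (P.image φ).powerset.finite_toSet.subset fun _ hA => Finset.mem_powerset.2 hA.1
  · have key := halving_generic hx h3' _ _ hCP' hC' hR' hcov'
    rw [hcard] at key
    refine le_trans (Set.ncard_le_ncard_of_injOn (fun A => A.image φ) ?_ himg.injOn ?_) key
    · rintro A ⟨u, hu, v, hv, huv, rfl, hl, hr⟩
      refine ⟨φ u, Finset.mem_image_of_mem _ hu, φ v, Finset.mem_image_of_mem _ hv,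
        (shear_inj ε).ne huv, by simp [Finset.image_insert], ?_, ?_⟩
      · rw [Finset.filter_image, Finset.card_image_of_injective _ (shear_inj ε), hcard]
        simpa only [φ, side_shear] using hl
      · rw [Finset.filter_image, Finset.card_image_of_injective _ (shear_inj ε), hcard]
        simpa only [φ, side_shear] using hr
    · refine (P.image φ).powerset.finite_toSet.subset ?_
      rintro A ⟨u, hu, v, hv, -, rfl, -⟩
      exact Finset.mem_powerset.2 (Finset.insert_subset hu (Finset.singleton_subset_iff.2 hv))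

end Vale.Agent.P065
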