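import Mathlib

/-!
Planar point sets: orientation, k-sets and halving pairs.
-/

namespace Vale.Agent.P065

/-- Orientation determinant: positive iff `p` lies strictly left of the directed line `u → v`. -/
def side (u v p : ℝ × ℝ) : ℝ :=
  (v.1 - u.1) * (p.2 - u.2) - (v.2 - u.2) * (p.1 - u.1)

/-- No three distinct points of `P` lie on a line. -/
def NoThree (P : Finset (ℝ × ℝ)) : Prop :=
  ∀ u ∈ P, ∀ v ∈ P, ∀ w ∈ P, u ≠ v → u ≠ w → v ≠ w → side u v w ≠ 0

/-- `S` is in convex position: no point of `S` is in the convex hull of the others. -/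
def InConvexPosition (S : Finset (ℝ × ℝ)) : Prop :=
  ∀ p ∈ S, p ∉ convexHull ℝ ((S : Set (ℝ × ℝ)) \ {p})

/-- The `k`-sets of `P`: `k`-subsets strictly separated from the rest of `P` by a line. -/
def kSets (P : Finset (ℝ × ℝ)) (k : ℕ) : Set (Finset (ℝ × ℝ)) :=
  {S | S ⊆ P ∧ S.card = k ∧ ∃ a b t : ℝ, (a, b) ≠ (0, 0) ∧
    (∀ p ∈ S, t < a * p.1 + b * p.2) ∧ ∀ p ∈ P, p ∉ S → a * p.1 + b * p.2 < t}

/-- The halving pairs of `P`: unordered pairs whose line has exactly `(n - 2) / 2` points of `P`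
in each open half-plane, `n` being the number of points of `P`. -/
noncomputable def halvingPairs (P : Finset (ℝ × ℝ)) : Set (Finset (ℝ × ℝ)) :=
  {s | ∃ u ∈ P, ∃ v ∈ P, u ≠ v ∧ s = {u, v} ∧
    2 * (P.filter fun p => 0 < side u v p).card + 2 = P.card ∧
    2 * (P.filter fun p => side u v p < 0).card + 2 = P.card}

end Vale.Agent.P065
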